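import Mathlib

/-!
# P110: Littlewood polynomials
-/

open Polynomial Filter

namespace Vale.Agent.N110M

/-- `P` is a Littlewood polynomial of length `N`: the coefficients of `X ^ k` are `1` or `-1` for
`k < N` and `0` for `k ≥ N` -/
def IsLittlewood (N : ℕ) (P : ℤ[X]) : Prop :=
  (∀ k < N, P.coeff k = 1 ∨ P.coeff k = -1) ∧ ∀ k ≥ N, P.coeff k = 0

/-- `| |w| / √N - 1 |` -/
noncomputable def defect (N : ℕ) (w : ℂ) : ℝ := |‖w‖ / √N - 1|

/-- the infinite sign sequences with `c`-flat initial segments of infinitely many lengths, for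
every `c > 0` -/
def oftenFlat : Set (ℕ → ℤˣ) :=
  {ε | ∀ c > 0, ∃ᶠ N : ℕ in atTop, ∀ z : ℂ, ‖z‖ = 1 →
    defect N (∑ k ∈ Finset.range N, ((ε k : ℤ) : ℂ) * z ^ k) ≤ c}

/-- `a ‖x‖ ≤ ‖T x‖ ≤ b ‖x‖` for all `x` -/
def Between {E : Type} [Norm E] (a b : ℝ) (T : E → E) : Prop :=
  ∀ x, a * ‖x‖ ≤ ‖T x‖ ∧ ‖T x‖ ≤ b * ‖x‖

/-- `P(U) x`, for a polynomial `P` of length `N` -/
def opSum {E : Type} [AddCommGroup E] (N : ℕ) (P : ℤ[X]) (U : E → E) (x : E) : E :=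
  ∑ k ∈ Finset.range N, P.coeff k • U^[k] x

/-- the `N × N` circulant matrix of the coefficients of `P` -/
def circ (N : ℕ) (P : ℤ[X]) : Matrix (Fin N) (Fin N) ℂ :=
  Matrix.circulant fun i => (P.coeff i : ℂ)

/-- the sum of the `z ^ k` over the `k < N` for which `P` has coefficient `1` -/
noncomputable def ones (N : ℕ) (P : ℤ[X]) (z : ℂ) : ℂ :=
  ∑ k ∈ Finset.range N with P.coeff k = 1, z ^ k

end Vale.Agent.N110M
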