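import Vale.Agent.N110M.Ops
import Vale.Agent.P110.Bdl.B1

/-!
# P110: ultraflat polynomials, generic sign sequences, matrices
-/

open Polynomial Finset Filter Topology

namespace Vale.Agent.N110M

/-- the main theorem for infinite sign sequences -/
theorem flat_seq {c : ℝ} (hc : 0 < c) : ∀ᶠ N : ℕ in atTop, ∃ ε : ℕ → ℤˣ, ∀ z : ℂ, ‖z‖ = 1 →
    |‖∑ k ∈ range N, ((ε k : ℤ) : ℂ) * z ^ k‖ - √N| ≤ c * √N := by
  obtain ⟨N₀, h⟩ := Vale.Agent.P110.ultraflat c hc
  filter_upwards [eventually_ge_atTop N₀] with N hN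
  obtain ⟨a, ha⟩ := h N hN
  refine ⟨fun k => if hk : k < N then a ⟨k, hk⟩ else 1, fun z hz => ?_⟩
  have e : ∑ k ∈ range N, (((if hk : k < N then a ⟨k, hk⟩ else 1 : ℤˣ) : ℤ) : ℂ) * z ^ k =
      ∑ k : Fin N, ((a k : ℤ) : ℂ) * z ^ (k : ℕ) := by
    rw [Finset.sum_range]
    exact Finset.sum_congr rfl fun k _ => by rw [dif_pos k.2]
  rw [e, abs_le]
  obtain ⟨h1, h2⟩ := ha z hz
  constructor <;> linarith

theorem norm_unit (u : ℤˣ) : ‖((u : ℤ) : ℂ)‖ = 1 := by
  rcases Int.units_eq_one_or u with rfl | rfl <;> simp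

theorem flat_poly {c : ℝ} (hc : 0 < c) : ∀ᶠ N : ℕ in atTop, ∃ P : ℤ[X], IsLittlewood N P ∧
    ∀ z : ℂ, ‖z‖ = 1 → |‖aeval z P‖ - √N| ≤ c * √N := by
  filter_upwards [flat_seq hc] with N ⟨ε, hε⟩
  have hco : ∀ k, (∑ j ∈ range N, monomial j (ε j : ℤ) : ℤ[X]).coeff k =
      if k < N then (ε k : ℤ) else 0 := by
    intro k
    simp only [finsetSum_coeff, coeff_monomial, Finset.sum_ite_eq', mem_range]
  refine ⟨∑ j ∈ range N, monomial j (ε j : ℤ), ⟨fun k hk => ?_, fun k hk => ?_⟩, fun z hz => ?_⟩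
  · rw [hco, if_pos hk]
    rcases Int.units_eq_one_or (ε k) with h | h <;> simp [h]
  · rw [hco, if_neg (not_lt.2 hk)]
  · have := hε z hz
    simpa [map_sum, aeval_monomial] using this

theorem div_form {x c : ℝ} {N : ℕ} (hN : 0 < N) (h : |x - √N| ≤ c * √N) : |x / √N - 1| ≤ c := by
  have hs : 0 < √(N : ℝ) := Real.sqrt_pos.2 (by exact_mod_cast hN)
  have : x / √N - 1 = (x - √N) / √N := by field_simp
  rw [this, abs_div, abs_of_pos hs, div_le_iff₀ hs]
  exact h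

theorem literal : ∃ (N : ℕ → ℕ) (P : ℕ → ℤ[X]) (m : ℕ → ℝ), Tendsto N atTop atTop ∧
    (∀ n, IsLittlewood (N n) (P n)) ∧
    (∀ n, IsGreatest ((fun z : ℂ => defect (N n) (aeval z (P n))) '' {z | ‖z‖ = 1}) (m n)) ∧
    Tendsto m atTop (𝓝 0) := by
  unfold defect
  have h : ∀ n : ℕ, ∃ (N : ℕ) (P : ℤ[X]) (m : ℝ), n ≤ N ∧ IsLittlewood N P ∧
      IsGreatest ((fun z : ℂ => |‖aeval z P‖ / √N - 1|) '' {z | ‖z‖ = 1}) m ∧
      0 ≤ m ∧ m ≤ 1 / ((n : ℝ) + 1) := by
    intro n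
    obtain ⟨N, ⟨P, hP, hf⟩, hN⟩ := ((flat_poly (c := 1 / ((n : ℝ) + 1)) (by positivity)).and
      (eventually_ge_atTop (n + 1))).exists
    have hK : IsCompact {z : ℂ | ‖z‖ = 1} := by
      convert isCompact_sphere (0 : ℂ) 1 using 1
      ext z
      simp
    have hco : Continuous fun z : ℂ => |‖aeval z P‖ / √N - 1| :=
      (((P.continuous_aeval).norm.div_const _).sub continuous_const).abs
    obtain ⟨w, hw, hmax⟩ := hK.exists_isMaxOn ⟨1, by simp⟩ hco.continuousOn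
    refine ⟨N, P, _, by omega, hP, ⟨⟨w, hw, rfl⟩, ?_⟩, abs_nonneg _,
      div_form (by omega) (hf w hw)⟩
    rintro _ ⟨z, hz, rfl⟩
    exact hmax hz
  choose N P m hN hP hm h0 h1 using h
  exact ⟨N, P, m, tendsto_atTop_mono hN tendsto_id, hP, hm,
    squeeze_zero h0 h1 tendsto_one_div_add_atTop_nhds_zero_nat⟩

/-- the first `j` signs can be prescribed -/
theorem flat_start {c : ℝ} (hc : 0 < c) (j : ℕ) : ∀ᶠ N : ℕ in atTop, ∀ η : ℕ → ℤˣ,
    ∃ ε : ℕ → ℤˣ, (∀ k < j, ε k = η k) ∧ ∀ z : ℂ, ‖z‖ = 1 →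
      |‖∑ k ∈ range N, ((ε k : ℤ) : ℂ) * z ^ k‖ / √N - 1| ≤ c := by
  have ht : Tendsto (fun N : ℕ => c / 2 * √(N : ℝ)) atTop atTop :=
    (Real.tendsto_sqrt_atTop.comp tendsto_natCast_atTop_atTop).const_mul_atTop (half_pos hc)
  filter_upwards [flat_seq (half_pos hc), ht.eventually_ge_atTop (2 * j),
    eventually_gt_atTop 0] with N ⟨a, ha⟩ hj hN η
  refine ⟨fun k => if k < j then η k else a k, fun k hk => if_pos hk, fun z hz => ?_⟩
  refine div_form hN ?_
  have h1 := ha z hz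
  have h2 : ‖∑ k ∈ range N, (((if k < j then η k else a k : ℤˣ) : ℤ) : ℂ) * z ^ k -
      ∑ k ∈ range N, ((a k : ℤ) : ℂ) * z ^ k‖ ≤ 2 * j := by
    rw [← Finset.sum_sub_distrib]
    refine (norm_sum_le _ _).trans ?_
    calc _ ≤ ∑ k ∈ range N, (if k < j then 2 else 0 : ℝ) := by
          refine Finset.sum_le_sum fun k _ => ?_
          split_ifs
          · rw [← sub_mul, norm_mul, norm_pow, hz, one_pow, mul_one]
            refine (norm_sub_le _ _).trans ?_
            rw [norm_unit, norm_unit]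
            norm_num
          · simp
      _ = 2 * ((range N).filter (· < j)).card := by
          rw [← Finset.sum_filter, Finset.sum_const, nsmul_eq_mul, mul_comm]
      _ ≤ 2 * j := by
          have : ((range N).filter (· < j)).card ≤ j := by
            refine (Finset.card_le_card fun k hk => ?_).trans (Finset.card_range j).le
            exact mem_range.2 (Finset.mem_filter.1 hk).2
          have : (((range N).filter (· < j)).card : ℝ) ≤ j := by exact_mod_cast this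
          linarith
  have h3 := (abs_norm_sub_norm_le _ _).trans h2
  rw [abs_le] at h1 h3 ⊢
  constructor <;> linarith [h1.1, h1.2, h3.1, h3.2]

theorem generic : oftenFlat ∈ residual (ℕ → ℤˣ) := by
  set G : ℕ × ℕ → Set (ℕ → ℤˣ) := fun p => {ε | ∃ N ≥ p.2, ∀ z : ℂ, ‖z‖ = 1 →
    |‖∑ k ∈ range N, ((ε k : ℤ) : ℂ) * z ^ k‖ / √N - 1| ≤ 1 / ((p.1 : ℝ) + 1)} with hG
  have hO : ∀ p, IsOpen (G p) := by
    intro p
    rw [isOpen_iff_mem_nhds]
    rintro ε ⟨N, hN, h⟩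
    have : ∀ᶠ η in 𝓝 ε, ∀ k ∈ range N, η k = ε k := by
      rw [eventually_all_finset]
      intro k _
      exact (continuous_apply k).continuousAt.eventually_mem ((isOpen_discrete {ε k}).mem_nhds rfl)
    filter_upwards [this] with η hη
    refine ⟨N, hN, fun z hz => ?_⟩
    rw [Finset.sum_congr rfl fun k hk => by rw [hη k hk]]
    exact h z hz
  have hD : ∀ p, Dense (G p) := by
    intro p η
    have : ∀ j, ∃ ε ∈ G p, ∀ k < j, ε k = η k := by
      intro j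
      obtain ⟨N, h, hN⟩ := ((flat_start (c := 1 / ((p.1 : ℝ) + 1)) (by positivity) j).and
        (eventually_ge_atTop p.2)).exists
      obtain ⟨ε, h1, h2⟩ := h η
      exact ⟨ε, ⟨N, hN, h2⟩, h1⟩
    choose ε h1 h2 using this
    refine mem_closure_of_tendsto (f := ε) (b := atTop) ?_ (Eventually.of_forall h1)
    rw [tendsto_pi_nhds]
    intro k
    refine tendsto_const_nhds.congr' ?_
    filter_upwards [eventually_gt_atTop k] with j hj
    exact (h2 j k hj).symm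
  have hI : (⋂ p, G p) ∈ residual (ℕ → ℤˣ) :=
    countable_iInter_mem.2 fun p => residual_of_dense_open (hO p) (hD p)
  refine mem_of_superset hI fun ε hε c hc => ?_
  rw [frequently_atTop]
  intro n
  obtain ⟨m, hm⟩ := exists_nat_one_div_lt hc
  obtain ⟨N, hN, h⟩ := Set.mem_iInter.1 hε (m, n)
  exact ⟨N, hN, fun z hz => (h z hz).trans hm.le⟩

theorem newman {N : ℕ} {P : ℤ[X]} (hP : IsLittlewood N P) {z : ℂ} (hz : z ≠ 1) :
    |2 * ‖∑ k ∈ range N with P.coeff k = 1, z ^ k‖ - ‖aeval z P‖| ≤ ‖z ^ N - 1‖ / ‖z - 1‖ := by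
  have e : 2 * ∑ k ∈ range N with P.coeff k = 1, z ^ k - aeval z P = (z ^ N - 1) / (z - 1) := by
    rw [← geom_sum_eq hz, aeval_eq_sum hP.2, Finset.sum_filter, Finset.mul_sum,
      ← Finset.sum_sub_distrib]
    refine Finset.sum_congr rfl fun k hk => ?_
    rcases hP.1 k (mem_range.1 hk) with h | h
    · rw [if_pos h, h]; simp; ring
    · rw [if_neg (by rw [h]; decide), h]; simp
  rw [← norm_div, ← e]
  have := abs_norm_sub_norm_le (2 * ∑ k ∈ range N with P.coeff k = 1, z ^ k) (aeval z P)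
  rwa [norm_mul, Complex.norm_two] at this

theorem matrices (c : ℝ) (h0 : 0 < c) (h1 : c < 1) : ∀ᶠ N : ℕ in atTop, ∃ P : ℤ[X],
    IsLittlewood N P ∧
    (∀ (E : Type) [NormedAddCommGroup E] [InnerProductSpace ℂ E] [CompleteSpace E],
      ∀ U : E ≃ₗᵢ[ℂ] E, Between ((1 - c) * √N) ((1 + c) * √N) (opSum N P U)) ∧
    Between ((1 - c) * √N) ((1 + c) * √N)
      (fun x : EuclideanSpace ℂ (Fin N) => WithLp.toLp 2 ((circ N P).mulVec x.ofLp)) ∧
    ((1 - c) * √N) ^ N ≤ ‖(circ N P).det‖ ∧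
    ∀ z : ℂ, ‖z‖ = 1 → z ≠ 1 → |2 * ‖ones N P z‖ - √N| ≤ c * √N + ‖z ^ N - 1‖ / ‖z - 1‖ := by
  filter_upwards [flat_poly h0, eventually_gt_atTop 0] with N ⟨P, hP, hf⟩ hN
  have hs : 0 < √(N : ℝ) := Real.sqrt_pos.2 (by exact_mod_cast hN)
  have ha : 0 < (1 - c) * √N := mul_pos (by linarith) hs
  have hb : 0 ≤ (1 + c) * √N := by positivity
  have hf' : ∀ z : ℂ, ‖z‖ = 1 → (1 - c) * √N ≤ ‖aeval z P‖ ∧ ‖aeval z P‖ ≤ (1 + c) * √N := by
    intro z hz
    have := abs_le.1 (hf z hz)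
    constructor <;> linarith [this.1, this.2]
  refine ⟨P, hP, fun E _ _ _ U x => ?_, and_assoc.1 ⟨?_, fun z hz hz1 => ?_⟩⟩
  · have h := unitary_bounds P ha hb hf' _ (Unitary.linearIsometryEquiv.symm U).2 x
    have e : aeval (Unitary.linearIsometryEquiv.symm U).1 P x = opSum N P U x := by
      rw [aeval_eq_sum hP.2, _root_.sum_apply, opSum]
      refine Finset.sum_congr rfl fun k _ => ?_
      rw [_root_.smul_apply, FunLike.coe_pow_eq_iterate]
      rfl
    rwa [e] at h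
  · obtain ⟨m, rfl⟩ : ∃ m, N = m + 1 := ⟨N - 1, by omega⟩
    have h := matrix_bounds P ha hb hf' (shift m) (shift_unitary m)
    rw [aeval_shift hP.2] at h
    refine ⟨h, ?_⟩
    have := det_lower _ ha.le fun x => (h x).1
    rwa [Fintype.card_fin] at this
  · have h2 := abs_le.1 (newman hP hz1)
    have h3 := abs_le.1 (hf z hz)
    rw [abs_le, ones]
    constructor <;> linarith [h2.1, h2.2, h3.1, h3.2]

end Vale.Agent.N110M
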