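import Vale.Agent.N110M.Defs

/-!
# P110: polynomials in unitary operators, circulant matrices
-/

open Polynomial Finset

namespace Vale.Agent.N110M

/-- two-sided bounds on the circle pass to unitary operators -/
theorem unitary_bounds {E : Type} [NormedAddCommGroup E] [InnerProductSpace ℂ E] [CompleteSpace E]
    (P : ℤ[X]) {a b : ℝ} (ha : 0 < a) (hb : 0 ≤ b)
    (h : ∀ z : ℂ, ‖z‖ = 1 → a ≤ ‖aeval z P‖ ∧ ‖aeval z P‖ ≤ b)
    (U : E →L[ℂ] E) (hU : U ∈ unitary (E →L[ℂ] E)) (x : E) :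
    a * ‖x‖ ≤ ‖aeval U P x‖ ∧ ‖aeval U P x‖ ≤ b * ‖x‖ := by
  have hn : IsStarNormal U := isStarNormal_of_mem_unitary hU
  set p : ℂ[X] := P.map (algebraMap ℤ ℂ) with hp
  have e1 : aeval U P = aeval U p := (aeval_map_algebraMap ℂ U P).symm
  have e2 : ∀ z : ℂ, p.eval z = aeval z P := fun z => by
    rw [hp, eval_map_algebraMap]
  have e3 : cfc p.eval U = aeval U p := cfc_polynomial p U
  have hs : ∀ z ∈ spectrum ℂ U, a ≤ ‖p.eval z‖ ∧ ‖p.eval z‖ ≤ b := fun z hz => by
    rw [e2]; exact h z (spectrum.norm_eq_one_of_unitary hU hz)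
  have hne : ∀ z ∈ spectrum ℂ U, p.eval z ≠ 0 := fun z hz h0 => by
    have := (hs z hz).1
    rw [h0, norm_zero] at this
    linarith
  have hc : ContinuousOn p.eval (spectrum ℂ U) := p.continuous.continuousOn
  have hc' : ContinuousOn (fun z => (p.eval z)⁻¹) (spectrum ℂ U) := hc.inv₀ hne
  have up : ‖aeval U P‖ ≤ b := by
    rw [e1, ← e3]; exact norm_cfc_le hb fun z hz => (hs z hz).2
  have inv : cfc (fun z => (p.eval z)⁻¹) U * aeval U P = 1 := by
    rw [e1, ← e3, ← cfc_mul _ _ U hc' hc, ← cfc_const_one ℂ U]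
    exact cfc_congr fun z hz => inv_mul_cancel₀ (hne z hz)
  have low : ‖cfc (fun z => (p.eval z)⁻¹) U‖ ≤ a⁻¹ :=
    norm_cfc_le (inv_nonneg.2 ha.le) fun z hz => by
      rw [norm_inv]; exact inv_anti₀ ha (hs z hz).1
  constructor
  · have h1 : x = cfc (fun z => (p.eval z)⁻¹) U (aeval U P x) := by
      rw [← mul_apply_eq_comp, inv, one_apply_eq_self]
    have h2 : ‖x‖ ≤ a⁻¹ * ‖aeval U P x‖ := by
      calc ‖x‖ = ‖cfc (fun z => (p.eval z)⁻¹) U (aeval U P x)‖ := by rw [← h1]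
        _ ≤ ‖cfc (fun z => (p.eval z)⁻¹) U‖ * ‖aeval U P x‖ := ContinuousLinearMap.le_opNorm _ _
        _ ≤ a⁻¹ * ‖aeval U P x‖ := by gcongr
    calc a * ‖x‖ ≤ a * (a⁻¹ * ‖aeval U P x‖) := by gcongr
      _ = ‖aeval U P x‖ := by field_simp
  · calc ‖aeval U P x‖ ≤ ‖aeval U P‖ * ‖x‖ := ContinuousLinearMap.le_opNorm _ _
      _ ≤ b * ‖x‖ := by gcongr

/-- the same for unitary matrices -/
theorem matrix_bounds {n : Type} [Fintype n] [DecidableEq n]
    (P : ℤ[X]) {a b : ℝ} (ha : 0 < a) (hb : 0 ≤ b)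
    (h : ∀ z : ℂ, ‖z‖ = 1 → a ≤ ‖aeval z P‖ ∧ ‖aeval z P‖ ≤ b)
    (U : Matrix n n ℂ) (hU : U ∈ unitary (Matrix n n ℂ)) (x : EuclideanSpace ℂ n) :
    a * ‖x‖ ≤ ‖Matrix.toEuclideanCLM (n := n) (𝕜 := ℂ) (aeval U P) x‖ ∧
      ‖Matrix.toEuclideanCLM (n := n) (𝕜 := ℂ) (aeval U P) x‖ ≤ b * ‖x‖ := by
  set φ := Matrix.toEuclideanCLM (n := n) (𝕜 := ℂ) with hφ
  have hU' : φ U ∈ unitary (EuclideanSpace ℂ n →L[ℂ] EuclideanSpace ℂ n) := by
    rw [Unitary.mem_iff] at hU ⊢
    rw [← map_star, ← map_mul, ← map_mul, hU.1, hU.2, map_one]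
    exact ⟨rfl, rfl⟩
  have e : φ (aeval U P) = aeval (φ U) P := by
    rw [← aeval_map_algebraMap ℂ U P, ← aeval_map_algebraMap ℂ (φ U) P]
    exact (aeval_algHom_apply (φ : _ ≃⋆ₐ[ℂ] _) U _).symm
  rw [e]
  exact unitary_bounds P ha hb h (φ U) hU' x

/-- a lower bound on all vectors bounds the determinant -/
theorem det_lower {n : Type} [Fintype n] [DecidableEq n] (M : Matrix n n ℂ) {a : ℝ} (ha : 0 ≤ a)
    (h : ∀ x : EuclideanSpace ℂ n,
      a * ‖x‖ ≤ ‖Matrix.toEuclideanCLM (n := n) (𝕜 := ℂ) M x‖) :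
    a ^ Fintype.card n ≤ ‖M.det‖ := by
  rw [Matrix.det_eq_prod_roots_charpoly]
  have hc : M.charpoly.roots.card = Fintype.card n := by
    rw [← (IsAlgClosed.splits M.charpoly).natDegree_eq_card_roots, Matrix.charpoly_natDegree_eq_dim]
  have hr : ∀ μ ∈ M.charpoly.roots, a ≤ ‖μ‖ := by
    intro μ hμ
    have h1 : M.charpoly.IsRoot μ := isRoot_of_mem_roots hμ
    have h2 : (Matrix.scalar n μ - M).det = 0 := by
      rw [← Matrix.eval_charpoly]; exact h1
    obtain ⟨v, hv0, hv⟩ := Matrix.exists_mulVec_eq_zero_iff.2 h2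
    have h3 : M.mulVec v = μ • v := by
      rw [Matrix.sub_mulVec, sub_eq_zero] at hv
      rw [← hv]
      ext i
      simp [Matrix.mulVec_diagonal]
    have h4 := h (WithLp.toLp 2 v)
    rw [Matrix.toEuclideanCLM_toLp, h3, WithLp.toLp_smul, norm_smul] at h4
    have h5 : 0 < ‖(WithLp.toLp 2 v : EuclideanSpace ℂ n)‖ := by
      rw [norm_pos_iff]
      intro h0
      exact hv0 (by simpa using h0)
    exact le_of_mul_le_mul_right h4 h5
  rw [← hc]
  generalize M.charpoly.roots = s at hr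
  induction s using Multiset.induction_on with
  | empty => simp
  | cons μ s ih =>
    rw [Multiset.card_cons, Multiset.prod_cons, norm_mul, pow_succ']
    exact mul_le_mul (hr μ (Multiset.mem_cons_self _ _))
      (ih fun ν hν => hr ν (Multiset.mem_cons_of_mem hν)) (pow_nonneg ha _) (norm_nonneg _)

/-- the cyclic shift -/
def shift (m : ℕ) : Matrix (Fin (m + 1)) (Fin (m + 1)) ℂ :=
  Matrix.circulant (Pi.single 1 1)

theorem shift_pow (m k : ℕ) :
    shift m ^ k = Matrix.circulant (Pi.single (Fin.ofNat (m + 1) k) 1) := by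
  induction k with
  | zero =>
    rw [pow_zero, ← Matrix.circulant_single_one ℂ (Fin (m + 1))]
    rfl
  | succ k ih =>
    rw [pow_succ, ih, shift, Matrix.circulant_mul]
    congr 1
    ext i
    rw [Matrix.mulVec_single_one]
    simp only [Matrix.col_apply, Matrix.circulant_apply, Pi.single_apply]
    have : (i - 1 = Fin.ofNat (m + 1) k) ↔ (i = Fin.ofNat (m + 1) (k + 1)) := by
      rw [sub_eq_iff_eq_add]
      have : Fin.ofNat (m + 1) (k + 1) = Fin.ofNat (m + 1) k + 1 := by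
        apply Fin.ext
        simp [Fin.val_add]
      rw [this]
    simp only [this]

theorem shift_unitary (m : ℕ) : shift m ∈ unitary (Matrix (Fin (m + 1)) (Fin (m + 1)) ℂ) := by
  have h : shift m * star (shift m) = 1 := by
    rw [Matrix.star_eq_conjTranspose, shift, Matrix.conjTranspose_circulant, Matrix.circulant_mul,
      ← Matrix.circulant_single_one ℂ (Fin (m + 1))]
    congr 1
    have : (star fun i : Fin (m + 1) => (Pi.single 1 1 : Fin (m + 1) → ℂ) (-i)) =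
        Pi.single (-1) 1 := by
      ext i
      simp only [Pi.star_apply, Pi.single_apply, neg_eq_iff_eq_neg]
      split_ifs <;> simp
    rw [this]
    ext i
    rw [Matrix.mulVec_single_one]
    simp only [Matrix.col_apply, Matrix.circulant_apply, Pi.single_apply, sub_neg_eq_add,
      add_eq_right]
  exact Unitary.mem_iff.2 ⟨mul_eq_one_comm.1 h, h⟩

theorem aeval_eq_sum {A : Type} [Semiring A] [Algebra ℤ A] {N : ℕ} {P : ℤ[X]}
    (h : ∀ k ≥ N, P.coeff k = 0) (z : A) :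
    aeval z P = ∑ k ∈ range N, P.coeff k • z ^ k := by
  rcases eq_or_ne P 0 with rfl | h0
  · simp
  · refine aeval_eq_sum_range' ?_ z
    by_contra hc
    exact h0 (leadingCoeff_eq_zero.1 (h _ (not_lt.1 hc)))

theorem aeval_shift {m : ℕ} {P : ℤ[X]} (h : ∀ k ≥ m + 1, P.coeff k = 0) :
    aeval (shift m) P = Matrix.circulant fun i : Fin (m + 1) => (P.coeff i : ℂ) := by
  rw [aeval_eq_sum h, Finset.sum_range]
  ext i j
  simp only [shift_pow, Matrix.sum_apply, Matrix.smul_apply, Matrix.circulant_apply,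
    Pi.single_apply, Fin.ofNat_val_eq_self]
  rw [Finset.sum_eq_single (i - j)]
  · simp
  · intro b _ hb
    rw [if_neg (Ne.symm hb), smul_zero]
  · simp

end Vale.Agent.N110M
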